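import Crest.Agent.X212.M.Rel
import Crest.Agent.X212.Met55.Mix
import Crest.Agent.X212.Line51.Lit

/-!
# Row 212, layer M (helper48): the leaf MS

`avoid` (a countable union of `C¹` images of small dimension misses a point), `ms1`, `ms2`.
-/

set_option autoImplicit false
set_option linter.unusedSectionVars false
noncomputable section
open Set Function Filter Topology Module Matrix
open scoped ContDiff Manifold ComplexOrder

namespace Crest.Agent.X212.Ms48
open M Met55 Pj41 Line51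

variable {E : Type} [NormedAddCommGroup E] [NormedSpace ℝ E] [FiniteDimensional ℝ E]
  {H : Type} [TopologicalSpace H] {I : ModelWithCorners ℝ E H} [I.Boundaryless]
  {X : Type} [TopologicalSpace X] [ChartedSpace H X] [IsManifold I ∞ X]
  [SecondCountableTopology X]

theorem avoid {A F V : Type} [NormedAddCommGroup A] [NormedSpace ℝ A]
    [NormedAddCommGroup F] [NormedSpace ℝ F] [FiniteDimensional ℝ F]
    [NormedAddCommGroup V] [NormedSpace ℝ V] [FiniteDimensional ℝ V] {G : A × F → V}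
    (hG : ContDiff ℝ 1 G) (hd : finrank ℝ E + finrank ℝ F < finrank ℝ V) (T : X → Set V)
    (h : ∀ p, ∃ a : X → A, ∀ᶠ x in 𝓝 p, FSm I a x ∧ T x ⊆ range fun f => G (a x, f)) :
    ∃ v, ∀ x, v ∉ T x := by
  choose a ha using h
  let U : X → Set X := fun p => {x | x ∈ (chartAt H p).source ∧
    FSm I (a p) x ∧ T x ⊆ range fun f => G (a p x, f)}
  have hU : ∀ p, U p ∈ 𝓝 p := fun p => inter_mem (chart_source_mem_nhds H p) (ha p)
  obtain ⟨s, hs, hc⟩ := TopologicalSpace.countable_cover_nhds hU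
  let g : X → E × F → V := fun p w => G (a p ((extChartAt I p).symm w.1), w.2)
  let W : X → Set (E × F) := fun p => (extChartAt I p '' U p) ×ˢ univ
  have h1 : ∀ p, dimH (g p '' W p) ≤ (finrank ℝ E + finrank ℝ F : ℕ) := fun p => by
    refine (dimH_image_le_of_locally_lipschitzOn ?_).trans ((dimH_mono (subset_univ _)).trans_eq ?_)
    · rintro ⟨_, f⟩ ⟨⟨x, hx, rfl⟩, -⟩
      have h2 : ContDiffAt ℝ 1 (a p ∘ (extChartAt I p).symm) (extChartAt I p x) :=
        chart_contDiffAt (by simp) hx.1 (hx.2.1.of_le (by simp))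
      have h3 : ContDiffAt ℝ 1 (g p) (extChartAt I p x, f) :=
        hG.contDiffAt.comp _ ((h2.comp (extChartAt I p x, f) contDiffAt_fst).prodMk contDiffAt_snd)
      obtain ⟨K, t, h4, h5⟩ := h3.exists_lipschitzOnWith
      exact ⟨K, t, mem_nhdsWithin_of_mem_nhds h4, h5⟩
    · rw [Real.dimH_univ_eq_finrank, finrank_prod]
  have h2 : dimH (⋃ p ∈ s, g p '' W p) < finrank ℝ V := by
    rw [dimH_bUnion hs]
    exact (iSup₂_le fun p _ => h1 p).trans_lt (by exact_mod_cast hd)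
  obtain ⟨v, hv⟩ := (dense_compl_of_dimH_lt_finrank h2).nonempty
  refine ⟨v, fun x hx => hv ?_⟩
  obtain ⟨p, hp, h3⟩ := mem_iUnion₂.1 (hc ▸ mem_univ x : x ∈ ⋃ p ∈ s, U p)
  obtain ⟨f, rfl⟩ := h3.2.2 hx
  refine mem_iUnion₂.2 ⟨p, hp, (extChartAt I p x, f), ⟨⟨x, h3, rfl⟩, trivial⟩, ?_⟩
  simp only [g]
  rw [(extChartAt I p).left_inv (by simpa using h3.1)]

/-- a matrix with kernel the line through `v` -/
theorem exists_drop {K : Type} [Field K] {n : ℕ} {v : Fin (n + 1) → K} (hv : v ≠ 0) :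
    ∃ Q : Matrix (Fin n) (Fin (n + 1)) K, ∀ w, Q *ᵥ w = 0 → ∃ c : K, w = c • v := by
  obtain ⟨k, hk⟩ := Function.ne_iff.1 hv
  have hk : v k ≠ 0 := hk
  refine ⟨Matrix.of fun i => Pi.single (k.succAbove i) 1 - Pi.single k (v (k.succAbove i) / v k),
    fun w hw => ⟨w k / v k, funext fun j => ?_⟩⟩
  refine Fin.succAboveCases k (by simp [hk]) (fun i => ?_) j
  have := congrFun hw i
  simp only [mulVec, of_apply, Pi.zero_apply] at this
  have e : ∀ r : Fin (n + 1) → K, (fun j => r j) = r := fun _ => rfl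
  rw [e, sub_dotProduct, single_dotProduct, single_dotProduct, one_mul, sub_eq_zero] at this
  rw [this, Pi.smul_apply, smul_eq_mul]
  ring

theorem step1 {n : ℕ} (hn : 2 * finrank ℝ E ≤ n) (e : Fin (n + 1) → VF I X) (he : ∀ x, FAt e x) :
    ∃ e' : Fin n → VF I X, ∀ x, FAt e' x := by
  obtain ⟨v, hv⟩ := avoid (I := I) (A := Fin (n + 1) → E) (F := E →L[ℝ] ℝ)
    (G := fun w j => w.2 (w.1 j)) (contDiff_pi.2 fun j => contDiff_snd.clm_apply
      ((contDiff_apply ℝ E j).comp contDiff_fst))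
    (by rw [← LinearEquiv.finrank_eq (LinearMap.toContinuousLinearMap (𝕜 := ℝ) (E := E) (F' := ℝ)),
      Subspace.dual_finrank_eq]; simp; omega)
    (fun x => {w | ∃ ξ : E →ₗ[ℝ] ℝ, w = fun j => ξ (atx e x j)}) fun p => ⟨inc I p e, by
      filter_upwards [chart_source_mem_nhds H p] with x hx
      refine ⟨contMDiffAt_pi_space.2 fun j => (vAt_iff hx).1 ((he x).sm j), ?_⟩
      rintro _ ⟨ξ, rfl⟩
      let B := LinearEquiv.ofBijective (dch I p x) (bij_chart hx)
      refine ⟨LinearMap.toContinuousLinearMap (ξ ∘ₗ B.symm.toLinearMap), funext fun j => ?_⟩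
      exact congrArg ξ (B.symm_apply_apply (atx e x j))⟩
  rcases isEmpty_or_nonempty X with h0 | ⟨⟨x₀⟩⟩
  · exact ⟨fun _ _ => 0, fun x => isEmptyElim x⟩
  obtain ⟨Q, hQ⟩ := exists_drop (v := v) fun h0 => hv x₀ ⟨0, h0⟩
  refine ⟨mixF (fun _ => Q) e, fun x => ⟨vAt_mixF (MSm.const _) (he x).sm, sp_iff.2 ?_⟩⟩
  by_contra hn
  obtain ⟨ξ, h1, h2⟩ := Submodule.exists_dual_map_eq_bot_of_lt_top (lt_top_iff_ne_top.2 hn)
    inferInstance
  have h3 : ∀ i, ξ (atx (mixF (fun _ => Q) e) x i) = 0 := fun i => by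
    rw [← Submodule.mem_bot ℝ, ← h2]
    exact Submodule.mem_map_of_mem (Submodule.subset_span ⟨i, rfl⟩)
  obtain ⟨c, hc⟩ := hQ (fun j => ξ (atx e x j)) (funext fun i => by
    have := h3 i
    rw [show atx (mixF (fun _ => Q) e) x i = ∑ c, Q i c • atx e x c from rfl, map_sum] at this
    simpa [mulVec, dotProduct] using this)
  by_cases h4 : c = 0
  · refine h1 (LinearMap.ext fun w => ?_)
    obtain ⟨d, rfl⟩ := (he x).sp w
    have h5 : ∀ j, ξ (atx e x j) = 0 := fun j => by simpa [h4] using congrFun hc j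
    simp [h5]
  · refine hv x ⟨c⁻¹ • ξ, funext fun j => ?_⟩
    have := congrFun hc j
    simp only [Pi.smul_apply, smul_eq_mul] at this
    rw [LinearMap.smul_apply, this, smul_eq_mul, inv_mul_cancel_left₀ h4]

theorem exists_emb (ι : Type) [Fintype ι] (m : ℕ) : ∃ (k : ℕ) (g : ι → Fin (m + k)), Injective g :=
  ⟨Fintype.card ι, fun i => Fin.natAdd m (Fintype.equivFin ι i),
    (Fin.natAdd_injective _ _).comp (Fintype.equivFin ι).injective⟩

/-- `2 dim` fields are enough -/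
theorem exists_fields {ι : Type} [Fintype ι] {m : ℕ} (hm : 2 * finrank ℝ E ≤ m) (e : ι → VF I X)
    (he : ∀ x, FAt e x) : ∃ e' : Fin m → VF I X, ∀ x, FAt e' x := by
  have key : ∀ k, ∀ e : Fin (m + k) → VF I X, (∀ x, FAt e x) →
      ∃ e' : Fin m → VF I X, ∀ x, FAt e' x := fun k => by
    induction k with
    | zero => exact fun e he => ⟨e, he⟩
    | succ k ih =>
      intro e he
      obtain ⟨e', he'⟩ := step1 (n := m + k) (by omega) e he
      exact ih e' he'
  obtain ⟨k, g, hg⟩ := exists_emb ι m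
  exact key k _ fun x => (he x).pad hg

theorem ms1 : Ms1Stmt := fun Z _ _ e he => exists_fields (by rw [Z.dim]) e he

theorem on_of_uni {κ l : Type} [Fintype κ] [Fintype l] {p : X → Matrix κ κ ℂ}
    {q : X → Matrix l l ℂ} {w : X → Matrix l κ ℂ} (h : Ln.On I ⟨p, 0⟩ univ)
    (hw : Uni I p q w univ) : Ln.On I ⟨q, 0⟩ univ :=
  ⟨fun x hx => ((hw.sm x hx).mul (hw.sm x hx).ct).congr
      (Eventually.of_forall fun y => (hw.iso y trivial).tgt.symm),
    fun x hx => (hw.iso x hx).prj_tgt, fun x hx => (hw.iso x hx).trace_eq ▸ h.tr x hx, h.sa, h.dg⟩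

theorem step2 {n : ℕ} (hn : finrank ℝ E < 2 * n) (p : X → Matrix (Fin (n + 1)) (Fin (n + 1)) ℂ)
    (hp : Ln.On I ⟨p, 0⟩ univ) : ∃ (q : X → Matrix (Fin n) (Fin n) ℂ)
      (w : X → Matrix (Fin n) (Fin (n + 1)) ℂ), Uni I p q w univ := by
  classical
  obtain ⟨v, hv⟩ := avoid (I := I) (A := Fin (n + 1) → ℂ) (F := ℂ)
    (G := fun w => w.2 • w.1) (contDiff_snd.smul contDiff_fst)
    (by rw [finrank_pi_fintype]; simp; omega)
    (fun x => {w | p x *ᵥ w = w}) fun x₀ => by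
      obtain ⟨V, s, h1, h2, -, h3⟩ := hp.exists_fr isOpen_univ (mem_univ x₀)
      refine ⟨fun x j => s x j (), ?_⟩
      filter_upwards [h1.mem_nhds h2] with x hx
      refine ⟨contMDiffAt_pi_space.2 fun j => h3.sm x hx j (), fun w hw => ?_⟩
      refine ⟨((s x)ᴴ *ᵥ w) (), ?_⟩
      have h4 : s x * (s x)ᴴ = p x := (h3.iso x hx).tgt
      refine Eq.trans ?_ (show p x *ᵥ w = w from hw)
      rw [← h4, ← mulVec_mulVec]
      funext j
      simp [mulVec, dotProduct, mul_comm]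
  rcases isEmpty_or_nonempty X with h0 | ⟨⟨x₀⟩⟩
  · exact ⟨0, 0, fun x => isEmptyElim x, fun x => isEmptyElim x⟩
  obtain ⟨Q, hQ⟩ := exists_drop (v := v) fun h0 => hv x₀ (by simp [h0])
  have hg : ∀ x, (gram (p x) (Q * p x)).PosDef := fun x =>
    gram_posDef (hp.prj x trivial) fun w h1 h2 => by
      rw [← mulVec_mulVec, h1] at h2
      obtain ⟨c, rfl⟩ := hQ w h2
      by_contra h3
      have h4 : c ≠ 0 := fun e => h3 (by simp [e])
      rw [mulVec_smul] at h1
      exact hv x (smul_right_injective _ h4 h1)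
  refine ⟨fun x => nrm (p x) (Q * p x) * (nrm (p x) (Q * p x))ᴴ, fun x => nrm (p x) (Q * p x),
    fun x hx => MSm.nrm (hp.sm x hx) ((MSm.const Q).mul (hp.sm x hx))
      (Eventually.of_forall fun y => hp.prj y trivial) (hg x), fun x hx => ?_⟩
  obtain ⟨h1, h2⟩ := nrm_src (hp.prj x hx) (a := Q * p x)
    (by rw [Matrix.mul_assoc, show p x * p x = p x from (hp.prj x hx).idem]) (hg x)
  exact ⟨h1, rfl, h2⟩

/-- every line lives in `ℂ ^ m` for `2 m > dim` -/
theorem exists_line {ι : Type} [Fintype ι] {m : ℕ} (hm : finrank ℝ E < 2 * m)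
    (p : X → Matrix ι ι ℂ) (hp : Ln.On I ⟨p, 0⟩ univ) :
    ∃ (q : X → Matrix (Fin m) (Fin m) ℂ) (w : X → Matrix (Fin m) ι ℂ), Uni I p q w univ := by
  classical
  have key : ∀ k, ∀ p : X → Matrix (Fin (m + k)) (Fin (m + k)) ℂ, Ln.On I ⟨p, 0⟩ univ →
      ∃ (q : X → Matrix (Fin m) (Fin m) ℂ) (w : X → Matrix (Fin m) (Fin (m + k)) ℂ),
        Uni I p q w univ := fun k => by
    induction k with
    | zero => exact fun p hp => ⟨p, p, hp.sm, fun x hx => (hp.prj x hx).refl⟩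
    | succ k ih =>
      intro p hp
      obtain ⟨q, w, hw⟩ := step2 (n := m + k) (by omega) p hp
      obtain ⟨q', w', hw'⟩ := ih q (on_of_uni hp hw)
      exact ⟨q', _, hw.trans hw'⟩
  obtain ⟨k, g, hg⟩ := exists_emb ι m
  have h1 := (hp.iso_cj isOpen_univ (em_iso hg)).toUni
  obtain ⟨q, w, hw⟩ := key k _ (on_of_uni hp h1)
  exact ⟨q, _, h1.trans hw⟩

theorem ms2 : Ms2Stmt := fun Z _ _ p hp => exists_line (by rw [Z.dim]; norm_num) p hp

end Crest.Agent.X212.Ms48
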