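import Crest.Agent.X212.Nd18.Props
import Crest.Agent.X212.Std94.Loc
import Crest.Agent.X212.Std94.Smo
import Crest.Agent.X212.Ms48.Main

/-!
# Row 212, NECK (helper48): the leaf ONE

A smooth field of projectors of rank larger than the dimension has a nowhere vanishing section
`x ↦ P x w`; hence any two modules on a three-dimensional cross-section are isomorphic.
-/

set_option autoImplicit false
set_option linter.unusedSectionVars false
noncomputable section
open Set Function Filter Topology Module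
open scoped ContDiff Manifold

namespace Crest.Agent.X212.Ms48
open An Pj41 Std94 Nd18 Cyf70

section nv
variable {E : Type} [NormedAddCommGroup E] [NormedSpace ℝ E] [FiniteDimensional ℝ E]
  {H : Type} [TopologicalSpace H] {I : ModelWithCorners ℝ E H} [I.Boundaryless]
  {X : Type} [TopologicalSpace X] [ChartedSpace H X] [IsManifold I ∞ X]
  [SecondCountableTopology X]

/-- a smooth field of projectors of large rank does not kill a generic vector anywhere -/
theorem exists_nv {W : Type} [NormedAddCommGroup W] [NormedSpace ℝ W] [FiniteDimensional ℝ W]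
    {P : X → W →L[ℝ] W} (hs : ∀ x, FSm I P x) (hi : ∀ x w, P x (P x w) = P x w)
    (hr : ∀ x, finrank ℝ E < finrank ℝ (LinearMap.range (P x : W →ₗ[ℝ] W))) :
    ∃ w, ∀ x, P x w ≠ 0 := by
  rcases isEmpty_or_nonempty X with h0 | ⟨⟨x₀⟩⟩
  · exact ⟨0, fun x => isEmptyElim x⟩
  have h0 := (hr x₀).trans_le (Submodule.finrank_le _)
  have := FiniteDimensional.complete ℝ W
  refine avoid (I := I) (A := (Fin (finrank ℝ W - finrank ℝ E - 1) → ℝ) →L[ℝ] W)
    (G := fun w => w.1 w.2) (contDiff_fst.clm_apply contDiff_snd) (by simp; omega)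
    (fun x => {w | P x w = 0}) fun p => ?_
  have h1 := (P p : W →ₗ[ℝ] W).finrank_range_add_finrank_ker
  have h2 := hr p
  obtain ⟨f, hf⟩ := (finrank_le_iff_exists_linearMap (R := ℝ)
    (M := LinearMap.ker (P p : W →ₗ[ℝ] W))
    (M' := Fin (finrank ℝ W - finrank ℝ E - 1) → ℝ)).1 (by simp; omega)
  obtain ⟨g, hg⟩ := f.exists_leftInverse_of_injective (LinearMap.ker_eq_bot.2 hf)
  let L := LinearMap.toContinuousLinearMap ((LinearMap.ker (P p : W →ₗ[ℝ] W)).subtype ∘ₗ g)
  let S : X → W →L[ℝ] W := fun x => (1 - P x) * (1 - P p) + P x * P p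
  have s1 : ∀ x, (smAt I x).mem fun y => 1 - P y := fun x => Kl.sub ((smAt I x).const _) (hs x)
  have s2 : (smAt I p).mem S := (smAt I p).add (Kl.mulL (s1 p) ((smAt I p).const _))
    (Kl.mulL (hs p) ((smAt I p).const _))
  have s3 : IsUnit (S p) := by
    rw [show S p = 1 from ContinuousLinearMap.ext fun w => by simp [S, hi]]
    exact isUnit_one
  refine ⟨fun x => (1 - P x) ∘L L, ?_⟩
  filter_upwards [(ContMDiffAt.continuousAt s2).eventually (Units.isOpen.mem_nhds s3)] with x hx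
  refine ⟨Kl.comp (s1 x) ((smAt I x).const _), fun w hw => ?_⟩
  obtain ⟨v, rfl⟩ := (ContinuousLinearMap.isUnit_iff_bijective.1 hx).2 w
  have h3 : P x (P p v) = 0 := by simpa [S, hi] using hw
  refine ⟨f ⟨v - P p v, by simp [hi]⟩, ?_⟩
  have h4 := LinearMap.congr_fun hg ⟨v - P p v, by simp [hi]⟩
  simp only [LinearMap.comp_apply, LinearMap.id_apply] at h4
  simp [L, S, h4, h3]

end nv

section one
variable {E : Type} [NormedAddCommGroup E] [NormedSpace ℝ E] [FiniteDimensional ℝ E]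
  [MeasurableSpace E] [BorelSpace E]
  {HM : Type} [TopologicalSpace HM] {I : ModelWithCorners ℝ E HM}
  {M : Type} [TopologicalSpace M] [ChartedSpace HM M] [IsManifold I ∞ M]
  [MeasurableSpace M] {ι : Type} [Fintype ι] {lam : Type} [Fintype lam]
  {B : Base M ι lam} {m m' : Md M ι lam} {x : M}

theorem rank_Pix (hB : B.OK I) (H : PMx B m x) (H' : PMx B m' x) :
    4 ≤ finrank ℝ (LinearMap.range (Pix m m' x : CL m.V m'.V →ₗ[ℝ] CL m.V m'.V)) := by
  obtain ⟨U, s, u, h⟩ := exists_fx hB H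
  obtain ⟨u', h'⟩ := h.toBx.exists_fx H'
  rw [← Quaternion.finrank_eq_four (R := ℝ), ← LinearMap.finrank_range_of_inj (Xi_inj u' u)]
  refine Submodule.finrank_mono ?_
  rintro _ ⟨c, rfl⟩
  exact ⟨_, Pix_of_itx hB H H' ((h.itx_iff h' _).2 ⟨c, rfl⟩)⟩

theorem hs_pos {A : CL m.V m'.V} (h : A ≠ 0) : 0 < hs A A := by
  rw [hs_eq_sum (stdOrthonormalBasis ℝ m.V)]
  refine (Finset.sum_nonneg fun i _ => real_inner_self_nonneg).lt_of_ne' fun e => h ?_
  rw [Finset.sum_eq_zero_iff_of_nonneg fun i _ => real_inner_self_nonneg] at e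
  refine ContinuousLinearMap.coe_injective ((stdOrthonormalBasis ℝ m.V).toBasis.ext fun i => ?_)
  simpa using e i (Finset.mem_univ i)

/-- the normalised intertwiner -/
def nrmI (A : CL m.V m'.V) : CL m.V m'.V := (√((1 / 16 : ℝ) • hs A A))⁻¹ • A

theorem hs_nrmI {A : CL m.V m'.V} (h : A ≠ 0) : hs (nrmI A) (nrmI A) = 16 := by
  have px : 0 < (1 / 16 : ℝ) • hs A A := smul_pos (by norm_num) (hs_pos h)
  have e : hs A A = 16 * (1 / 16 : ℝ) • hs A A := by simp only [smul_eq_mul]; ring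
  rw [nrmI]
  generalize (1 / 16 : ℝ) • hs A A = c at px e
  rw [hs_smul, hs_comm, hs_smul, ← mul_assoc, ← mul_inv, Real.mul_self_sqrt px.le, e]
  field_simp

/-- a nowhere vanishing smooth intertwiner gives an isomorphism -/
theorem iso0_of_nv (hB : B.OK I) {O : Set M} (H : OKOn I B m O) (H' : OKOn I B m' O)
    {a : M → CL m.V m'.V} (hs : ∀ x ∈ O, FSm I a x) (hi : ∀ x ∈ O, Itx m m' x (a x))
    (h0 : ∀ x ∈ O, a x ≠ 0) : Iso0 I m m' O fun x => nrmI (a x) := by
  have i : ∀ x ∈ O, Itx m m' x (nrmI (a x)) := fun x hx => (hi x hx).smul _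
  refine ⟨fun y hy => (smAt_inv_sqrt (Kl.csmul (K := smAt I y) _ (Kl.hs (hs y hy) (hs y hy)))
      (smul_pos (by norm_num) (hs_pos (h0 y hy)))).smul (hs y hy), fun y hy => ?_,
    fun y hy => ContinuousLinearMap.ext fun v => ((i y hy).J v).symm,
    fun y hy b => ContinuousLinearMap.ext fun v => ((i y hy).ρ b v).symm,
    fun y hy s => ContinuousLinearMap.ext fun v => ((i y hy).j s v).symm⟩
  have := itx_norm hB (pmx_on H hy) (pmx_on H' hy) (i y hy)
  rw [hs_nrmI (h0 y hy), div_self (by norm_num), one_smul, one_smul, ← ad_trn] at this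
  exact ⟨this.1, this.2, ContinuousLinearMap.ext (i y hy).pr⟩

theorem sm_Pix (H : m.OK I B) (H' : m'.OK I B) (x : M) : FSm I (Pix m m') x :=
  Kl.Pi (K := smAt I x) ((smAt I x).const _) (fun a => H.sρ a x) (H.sj x) ((smAt I x).const _)
    (fun a => H'.sρ a x) (H'.sj x)

end one

variable {E3 : Type} [NormedAddCommGroup E3] [NormedSpace ℝ E3] [FiniteDimensional ℝ E3]
  [MeasurableSpace E3] [BorelSpace E3]
  {H3 : Type} [TopologicalSpace H3] {I3 : ModelWithCorners ℝ E3 H3} [I3.Boundaryless]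
  {Y : Type} [TopologicalSpace Y] [ChartedSpace H3 Y] [IsManifold I3 ∞ Y] [T2Space Y]
  [MeasurableSpace Y] [BorelSpace Y] [SecondCountableTopology Y] [CompactSpace Y]
  {κ : Type} [Fintype κ] {lam : Type} [Fintype lam]

/-- **ONE** -/
theorem one (D : YD I3 Y κ lam) : OneStmt D := by
  intro hD h3 m m' H H'
  have s := sm_Pix H H'
  obtain ⟨w, hw⟩ := exists_nv (I := I3)
    (P := fun y : Y => Pix (pbM Prod.fst m) (pbM Prod.fst m') (y, (0 : ℝ)))
    (fun y => (s (y, 0)).comp y (contMDiffAt_id.prodMk contMDiffAt_const))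
    (fun y w => Pix_of_itx hD.B (pmx H _) (pmx H' _) (itx_Pix hD.B (pmx H _) (pmx H' _) w))
    fun y => h3 ▸ rank_Pix hD.B (pmx H _) (pmx H' _)
  exact ⟨fun y => nrmI (Pix (pbM Prod.fst m) (pbM Prod.fst m') (y, (0 : ℝ)) w),
    (iso0_of_nv hD.B (OK.on H _) (OK.on H' _)
      (a := fun x => Pix (pbM Prod.fst m) (pbM Prod.fst m') x w)
      (fun x _ => Kl.appc (K := smAt (IC I3) x) (s x) w)
      (fun x _ => itx_Pix hD.B (pmx H _) (pmx H' _) w) fun x _ => hw x.1).mEq
      (OK.on H _) (OK.on H' _)⟩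

end Crest.Agent.X212.Ms48
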